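import Vale.Agent.P249.Final

open Filter Topology

namespace Vale.Agent.Results.P249.Subpoly

open Vale.Agent.P249

universe u

theorem result (p D : ℝ) (hp : 1 < p) (hp2 : p ≠ 2) (hD : 1 < D) :
    (∀ n : ℕ, 2 ≤ n → Embeds.{u} p n D (dp.{u} p n D)) ∧
    (∃ C : ℝ, ∀ n : ℕ, 2 ≤ n →
      (dp.{u} p n D : ℝ) ≤ Real.exp (C * Real.log n ^ |1 - 2 / p|)) ∧
    (∀ δ : ℝ, 0 < δ → ∀ᶠ n : ℕ in atTop, (dp.{u} p n D : ℝ) ≤ (n : ℝ) ^ δ) ∧
    Tendsto (fun n : ℕ => (dp.{u} p n D : ℝ) / n) atTop (𝓝 0) := by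
  obtain ⟨C, hC⟩ := embeds.{u} hp hp2 hD
  have hp0 : 0 < p := by linarith
  have h2 : ∀ n : ℕ, 2 ≤ n → (dp.{u} p n D : ℝ) ≤ Real.exp (C * Real.log n ^ |1 - 2 / p|) :=
    fun n hn =>
      let ⟨m, h1, h2⟩ := hC n hn
      le_trans (Nat.cast_le.2 (Nat.sInf_le h1)) h2
  have hθ : 0 < 1 - |1 - 2 / p| := by
    have : 0 < 2 / p := by positivity
    have : 2 / p < 2 := by rw [div_lt_iff₀ hp0]; linarith
    exact sub_pos.2 (abs_lt.2 ⟨by linarith, by linarith⟩)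
  have h3 : ∀ δ : ℝ, 0 < δ → ∀ᶠ n : ℕ in atTop, (dp.{u} p n D : ℝ) ≤ (n : ℝ) ^ δ := fun δ hδ => by
    have := ((tendsto_rpow_atTop hθ).comp (Real.tendsto_log_atTop.comp
      tendsto_natCast_atTop_atTop)).eventually_ge_atTop (C / δ)
    filter_upwards [this, eventually_ge_atTop 2] with n h hn
    have hn0 : (0 : ℝ) < n := by exact_mod_cast (by omega : 0 < n)
    have hl : 0 < Real.log n := by linarith [log_two_le hn]
    refine (h2 n hn).trans ?_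
    rw [Real.rpow_def_of_pos hn0 δ]
    refine Real.exp_le_exp.2 ?_
    have h : C / δ ≤ Real.log n ^ (1 - |1 - 2 / p|) := h
    rw [Real.rpow_sub hl, Real.rpow_one, div_le_div_iff₀ hδ (by positivity)] at h
    exact h
  refine ⟨fun n hn => Nat.sInf_mem (s := {d | Embeds.{u} p n D d})
    (let ⟨m, h1, _⟩ := hC n hn; ⟨m, h1⟩), ⟨C, h2⟩, h3, ?_⟩
  refine squeeze_zero' (Eventually.of_forall fun n => by positivity) ?_
    ((tendsto_rpow_neg_atTop (by norm_num : (0 : ℝ) < 1 / 2)).comp tendsto_natCast_atTop_atTop)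
  filter_upwards [h3 (1 / 2) (by norm_num), eventually_ge_atTop 1] with n h hn
  have hn0 : (0 : ℝ) < n := by exact_mod_cast hn
  refine (div_le_div_of_nonneg_right h hn0.le).trans (le_of_eq ?_)
  rw [← Real.rpow_sub_one hn0.ne']
  norm_num

end Vale.Agent.Results.P249.Subpoly
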